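import Vale.Agent.P045.C41.Db

namespace Vale.Agent.P045.C41

open Vale.Agent.P045

theorem pf0 : checkRange par db 1000000 0 3 0x420010000000000000010000000000000000100000000000000010000000000000201000688000001da1001020400000000000000010000000000000001000000000000000100000000000000210000688000001da100100006004049284000404004d4943fffff043004080000000000000004000000000000048000000000000008040000000000000048001a2000000348010002040062020000000000000020000000000000004200000000000000420000000000000042000d10000001a400800300004280045002000400300040030004000182141040081820000000000000020000000000000004200000000000000420000000000000042000d100000018018002081840800000000000000020000000000000042000000000000004200000000000000420000d100000018008006000000420220a4940080001011200060008006000800a0008004002800800180020000c580082008002800030404208020004000008080 = true := by decide +kernel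

end Vale.Agent.P045.C41
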